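import Vale.Agent.P038.H85.Key

/-!
# Two families of sets: the cut argument
-/

namespace Vale.Agent.P038.H85

open Finset

variable {V : Type*} [Fintype V] [DecidableEq V]

/-- The closed neighbourhood of a set. -/
def cl (N : V → Finset V) (S : Finset V) : Finset V := S.biUnion N

/-- `|N[S]| - |S|`. -/
def cc (N : V → Finset V) (S : Finset V) : ℤ := ((cl N S).card : ℤ) - S.card

theorem mem_cl {N : V → Finset V} {S : Finset V} {x : V} :
    x ∈ cl N S ↔ ∃ y ∈ S, x ∈ N y := by
  simp [cl]

theorem cc_submod (N : V → Finset V) (S T : Finset V) :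
    cc N (S ∪ T) + cc N (S ∩ T) ≤ cc N S + cc N T := by
  have h1 : cl N (S ∪ T) = cl N S ∪ cl N T := by
    ext x
    simp only [mem_cl, mem_union]
    constructor
    · rintro ⟨y, hy | hy, h⟩
      · exact Or.inl ⟨y, hy, h⟩
      · exact Or.inr ⟨y, hy, h⟩
    · rintro (⟨y, hy, h⟩ | ⟨y, hy, h⟩)
      · exact ⟨y, Or.inl hy, h⟩
      · exact ⟨y, Or.inr hy, h⟩
  have h2 : cl N (S ∩ T) ⊆ cl N S ∩ cl N T := by
    intro x hx
    obtain ⟨y, hy, h⟩ := mem_cl.1 hx
    exact mem_inter.2 ⟨mem_cl.2 ⟨y, (mem_inter.1 hy).1, h⟩, mem_cl.2 ⟨y, (mem_inter.1 hy).2, h⟩⟩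
  have h3 := card_union_add_card_inter (cl N S) (cl N T)
  have h4 := card_union_add_card_inter S T
  have h5 := card_le_card h2
  unfold cc
  rw [h1]
  omega

/-- Double counting. -/
theorem dc (Q : V → Finset V) :
    ∑ b, (Q b).card = ∑ a, (univ.filter (fun b => a ∈ Q b)).card := by
  simp only [Finset.card_eq_sum_ones, Finset.sum_filter]
  rw [Finset.sum_comm]
  apply Finset.sum_congr rfl
  intro b _
  rw [Finset.sum_ite_mem, univ_inter]

/-- Feasible pairs. -/
def Feas (N P Q : V → Finset V) : Prop :=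
  (∀ a, N a ⊆ P a) ∧ (∀ a, N a ⊆ Q a) ∧ ∀ a b, a ≠ b → b ∈ P a → a ∉ Q b

/-- The cost of a pair. -/
def cost (N P Q : V → Finset V) : ℤ := ∑ a, cc N (P a) + ∑ a, cc N (Q a)

theorem sum_update (N : V → Finset V) (P : V → Finset V) (a : V) (S : Finset V) :
    ∑ x, cc N (Function.update P a S x) = ∑ x, cc N (P x) + (cc N S - cc N (P a)) := by
  have h1 := Finset.add_sum_erase univ (fun x => cc N (Function.update P a S x)) (mem_univ a)
  have h2 := Finset.add_sum_erase univ (fun x => cc N (P x)) (mem_univ a)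
  have h3 : ∑ x ∈ univ.erase a, cc N (Function.update P a S x) =
      ∑ x ∈ univ.erase a, cc N (P x) := by
    apply Finset.sum_congr rfl
    intro x hx
    rw [Function.update_of_ne (ne_of_mem_erase hx)]
  simp only [Function.update_self] at h1
  rw [← h1, ← h2, h3]
  ring

/-- **The cut argument.** A reflexive antisymmetric neighbourhood structure without sinks cannot
have `|N[N[S]]| - |N[S]| < |N[S]| - |S|` for all sets `S` with `N[S] ≠ S`. -/
theorem noG [Nonempty V] (N : V → Finset V) (hN : ∀ a, a ∈ N a)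
    (hor : ∀ a b, b ∈ N a → a ∈ N b → a = b)
    (hsink : ∀ a, ∃ b ∈ N a, b ≠ a)
    (hG : ∀ S : Finset V, cl N S ≠ S → cc N (cl N S) < cc N S) : False := by
  classical
  have hsub : ∀ S : Finset V, S ⊆ cl N S := fun S x hx => mem_cl.2 ⟨x, hx, hN x⟩
  -- the optimal pair
  obtain ⟨⟨P, Q⟩, hF, hmin⟩ := Set.exists_min_image
    {p : (V → Finset V) × (V → Finset V) | Feas N p.1 p.2} (fun p => cost N p.1 p.2)
    (Set.toFinite _) ⟨(N, N), fun a => Subset.refl _, fun a => Subset.refl _,
      fun a b hab h1 h2 => hab (hor a b h1 h2)⟩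
  obtain ⟨hP, hQ, hPQ⟩ := hF
  have hmin' : ∀ P' Q', Feas N P' Q' → cost N P Q ≤ cost N P' Q' :=
    fun P' Q' h => hmin (P', Q') h
  let I : V → Finset V := fun a => univ.filter (fun s => a ∈ N s)
  have mI : ∀ {a s}, s ∈ I a ↔ a ∈ N s := by intro a s; simp [I]
  let U : V → Finset V := fun a => insert a (univ.filter (fun b => a ∉ Q b))
  have mU : ∀ {a b}, b ∈ U a ↔ b = a ∨ a ∉ Q b := by intro a b; simp [U]
  let X : V → Finset V := fun a => univ.filter (fun x => ∀ s ∈ I a, x ∈ P s)
  have mX : ∀ {a x}, x ∈ X a ↔ ∀ s ∈ I a, x ∈ P s := by intro a x; simp only [X, mem_filter, mem_univ, true_and]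
  let Y : V → Finset V := fun a => univ.filter (fun x => ∀ s ∈ I a, x ∈ Q s)
  have mY : ∀ {a x}, x ∈ Y a ↔ ∀ s ∈ I a, x ∈ Q s := by intro a x; simp only [Y, mem_filter, mem_univ, true_and]
  let Ub : V → Finset V := fun a => univ.filter (fun x => ∀ s ∈ I a, x ∈ U s)
  have mUb : ∀ {a x}, x ∈ Ub a ↔ ∀ s ∈ I a, x ∈ U s := by intro a x; simp only [Ub, mem_filter, mem_univ, true_and]
  have hI : ∀ a, a ∈ I a := fun a => mI.2 (hN a)
  -- the key inequality
  have hPU : ∀ a, P a ⊆ U a := by
    intro a x hx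
    rw [mU]
    by_cases h : x = a
    · exact Or.inl h
    · exact Or.inr (hPQ a x (Ne.symm h) hx)
  have R : ∀ a S, P a ⊆ S → S ⊆ U a → cc N (P a) ≤ cc N S := by
    intro a S h1 h2
    have h := hmin' (Function.update P a S) Q ⟨?_, hQ, ?_⟩
    · unfold cost at h
      rw [sum_update] at h
      linarith
    · intro x
      by_cases hx : x = a
      · subst hx
        rw [Function.update_self]
        exact (hP x).trans h1
      · rw [Function.update_of_ne hx]
        exact hP x
    · intro x b hxb hb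
      by_cases hx : x = a
      · subst hx
        rw [Function.update_self] at hb
        rcases mU.1 (h2 hb) with h3 | h3
        · exact absurd h3.symm hxb
        · exact h3
      · rw [Function.update_of_ne hx] at hb
        exact hPQ x b hxb hb
  have C : ∀ u (T : Finset V), (∀ z ∈ T, u ∈ U z ∧ u ∉ P z) →
      T.card ≤ (univ.filter (fun a => u ∈ Ub a ∧ ∃ z ∈ T, z ∈ I a)).card := by
    intro u T hT
    have hTQ : ∀ z ∈ T, z ∉ Q u := by
      intro z hz
      obtain ⟨h1, h2⟩ := hT z hz
      rcases mU.1 h1 with h3 | h3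
      · subst h3
        exact absurd (hP u (hN u)) h2
      · exact h3
    have h := hmin' P (Function.update Q u (Q u ∪ T)) ⟨hP, ?_, ?_⟩
    · unfold cost at h
      rw [sum_update] at h
      have h1 : cc N (Q u) ≤ cc N (Q u ∪ T) := by linarith
      have hd : Disjoint (Q u) T := by
        rw [Finset.disjoint_left]
        intro z hz hz'
        exact hTQ z hz' hz
      have h2 : (Q u ∪ T).card = (Q u).card + T.card := card_union_of_disjoint hd
      have h3 : cl N (Q u) ⊆ cl N (Q u ∪ T) := by
        intro x hx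
        obtain ⟨y, hy, h⟩ := mem_cl.1 hx
        exact mem_cl.2 ⟨y, mem_union_left _ hy, h⟩
      have h4 : cl N (Q u ∪ T) \ cl N (Q u) ⊆
          univ.filter (fun a => u ∈ Ub a ∧ ∃ z ∈ T, z ∈ I a) := by
        intro a ha
        obtain ⟨ha1, ha2⟩ := mem_sdiff.1 ha
        obtain ⟨z, hz, haz⟩ := mem_cl.1 ha1
        refine mem_filter.2 ⟨mem_univ _, mUb.2 ?_, z, ?_, mI.2 haz⟩
        · intro s hs
          refine mU.2 (Or.inr ?_)
          intro hs2
          exact ha2 (mem_cl.2 ⟨s, hs2, mI.1 hs⟩)
        · rcases mem_union.1 hz with h5 | h5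
          · exact absurd (mem_cl.2 ⟨z, h5, haz⟩) ha2
          · exact h5
      have h5 := card_le_card h4
      have h6 : (cl N (Q u ∪ T) \ cl N (Q u)).card + (cl N (Q u)).card =
          (cl N (Q u ∪ T)).card := card_sdiff_add_card_eq_card h3
      unfold cc at h1
      omega
    · intro x
      by_cases hx : x = u
      · subst hx
        rw [Function.update_self]
        exact (hQ x).trans subset_union_left
      · rw [Function.update_of_ne hx]
        exact hQ x
    · intro a b hab hb
      by_cases hx : b = u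
      · subst hx
        rw [Function.update_self, mem_union]
        rintro (h1 | h1)
        · exact hPQ a b hab hb h1
        · exact (hT a h1).2 hb
      · rw [Function.update_of_ne hx]
        exact hPQ a b hab hb
  have hkey := key (cc_submod N) I hI P U X Ub hPU (fun a x => mX) (fun a x => mUb) R C
  -- the identity
  have card_c : ∀ (p : V → Prop) [DecidablePred p],
      (univ.filter p).card + (univ.filter (fun b => ¬ p b)).card = Fintype.card V := by
    intro p _
    rw [← Finset.card_univ]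
    exact Finset.card_filter_add_card_filter_not (s := (univ : Finset V)) p
  have i1 : ∑ b, ((Q b).card : ℤ) = ∑ a, ((Fintype.card V : ℤ) + 1 - (U a).card) := by
    have h := dc Q
    have h' : ∑ b, ((Q b).card : ℤ) = ∑ a, ((univ.filter (fun b => a ∈ Q b)).card : ℤ) := by
      exact_mod_cast h
    rw [h']
    apply Finset.sum_congr rfl
    intro a _
    have h1 : (U a).card = (univ.filter (fun b => a ∉ Q b)).card + 1 := by
      apply card_insert_of_notMem
      simp only [mem_filter, mem_univ, true_and, not_not]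
      exact hQ a (hN a)
    have h2 := card_c (fun b => a ∈ Q b)
    omega
  have i2 : ∑ b, ((cl N (Q b)).card : ℤ) = ∑ a, ((Fintype.card V : ℤ) + 1 - (Ub a).card) := by
    have h := dc (fun b => cl N (Q b))
    have h' : ∑ b, ((cl N (Q b)).card : ℤ) =
        ∑ a, ((univ.filter (fun b => a ∈ cl N (Q b))).card : ℤ) := by
      exact_mod_cast h
    rw [h']
    apply Finset.sum_congr rfl
    intro a _
    have e : Ub a = insert a (univ.filter (fun b => ¬ a ∈ cl N (Q b))) := by
      ext x
      rw [mUb, mem_insert, mem_filter]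
      constructor
      · intro h
        by_cases hx : x = a
        · exact Or.inl hx
        · refine Or.inr ⟨mem_univ _, ?_⟩
          intro hcl
          obtain ⟨s, hs, has⟩ := mem_cl.1 hcl
          rcases mU.1 (h s (mI.2 has)) with h1 | h1
          · subst h1
            rcases mU.1 (h a (hI a)) with h2 | h2
            · exact hx h2
            · exact h2 (hQ x has)
          · exact h1 hs
      · rintro (h | ⟨_, h⟩) s hs
        · subst h
          rw [mU]
          by_cases h1 : x = s
          · exact Or.inl h1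
          · exact Or.inr (hPQ s x (Ne.symm h1) (hP s (mI.1 hs)))
        · rw [mU]
          refine Or.inr ?_
          intro h1
          exact h (mem_cl.2 ⟨s, h1, mI.1 hs⟩)
    have h1 : (Ub a).card = (univ.filter (fun b => ¬ a ∈ cl N (Q b))).card + 1 := by
      rw [e]
      apply card_insert_of_notMem
      simp only [mem_filter, mem_univ, true_and, not_not]
      exact hsub _ (hQ a (hN a))
    have h2 := card_c (fun b => a ∈ cl N (Q b))
    omega
  have hYa : ∀ a, a ∈ Y a := by
    intro a
    rw [mY]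
    intro s hs
    exact hQ s (mI.1 hs)
  have hXa : ∀ a, a ∈ X a := by
    intro a
    rw [mX]
    intro s hs
    exact hP s (mI.1 hs)
  have i3 : ∑ b, ((Y b).card : ℤ) = ∑ a, ((Fintype.card V : ℤ) + 1 - (cl N (U a)).card) := by
    have h := dc Y
    have h' : ∑ b, ((Y b).card : ℤ) = ∑ a, ((univ.filter (fun b => a ∈ Y b)).card : ℤ) := by
      exact_mod_cast h
    rw [h']
    apply Finset.sum_congr rfl
    intro a _
    have e : cl N (U a) = insert a (univ.filter (fun b => ¬ a ∈ Y b)) := by
      ext x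
      rw [mem_cl, mem_insert, mem_filter]
      constructor
      · rintro ⟨s, hs, hxs⟩
        by_cases hx : x = a
        · exact Or.inl hx
        · refine Or.inr ⟨mem_univ _, ?_⟩
          intro hY
          rcases mU.1 hs with h1 | h1
          · subst h1
            exact hPQ s x (Ne.symm hx) (hP s hxs) (mY.1 hY x (hI x))
          · exact h1 (mY.1 hY s (mI.2 hxs))
      · rintro (h | ⟨_, h⟩)
        · subst h
          exact ⟨x, mU.2 (Or.inl rfl), hN x⟩
        · rw [mY] at h
          push Not at h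
          obtain ⟨s, hs, h1⟩ := h
          exact ⟨s, mU.2 (Or.inr h1), mI.1 hs⟩
    have h1 : (cl N (U a)).card = (univ.filter (fun b => ¬ a ∈ Y b)).card + 1 := by
      rw [e]
      apply card_insert_of_notMem
      simp only [mem_filter, mem_univ, true_and, not_not]
      exact hYa a
    have h2 := card_c (fun b => a ∈ Y b)
    omega
  have i4 : ∑ b, ((cl N (Y b)).card : ℤ) ≤ ∑ a, ((Fintype.card V : ℤ) + 1 - (cl N (Ub a)).card) := by
    have h := dc (fun b => cl N (Y b))
    have h' : ∑ b, ((cl N (Y b)).card : ℤ) =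
        ∑ a, ((univ.filter (fun b => a ∈ cl N (Y b))).card : ℤ) := by
      exact_mod_cast h
    rw [h']
    apply Finset.sum_le_sum
    intro a _
    have e : cl N (Ub a) ⊆ insert a (univ.filter (fun b => ¬ a ∈ cl N (Y b))) := by
      intro b hb
      rw [mem_insert, mem_filter]
      by_cases hba : b = a
      · exact Or.inl hba
      · refine Or.inr ⟨mem_univ _, ?_⟩
        intro hcl
        obtain ⟨y, hy, hay⟩ := mem_cl.1 hcl
        obtain ⟨x, hx, hbx⟩ := mem_cl.1 hb
        have hyx : y ∈ Q x := mY.1 hy x (mI.2 hbx)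
        have hxy : x = y := by
          rcases mU.1 (mUb.1 hx y (mI.2 hay)) with h1 | h1
          · exact h1
          · exact absurd hyx h1
        subst hxy
        have hxa : x = a := by
          rcases mU.1 (mUb.1 hx a (hI a)) with h1 | h1
          · exact h1
          · exact absurd (hQ x hay) h1
        subst hxa
        exact hPQ x b (Ne.symm hba) (hP x hbx) (mY.1 hy b (hI b))
    have h1 : (cl N (Ub a)).card ≤ (univ.filter (fun b => ¬ a ∈ cl N (Y b))).card + 1 :=
      (card_le_card e).trans (card_insert_le _ _)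
    have h2 := card_c (fun b => a ∈ cl N (Y b))
    omega
  have hcost : cost N X Y ≤ cost N P Q := by
    unfold cost
    have j1 : ∑ a, cc N (Q a) = ∑ a, ((U a).card : ℤ) - ∑ a, ((Ub a).card : ℤ) := by
      unfold cc
      rw [Finset.sum_sub_distrib, i1, i2, Finset.sum_sub_distrib, Finset.sum_sub_distrib]
      ring
    have j2 : ∑ a, cc N (Y a) ≤ ∑ a, ((cl N (U a)).card : ℤ) - ∑ a, ((cl N (Ub a)).card : ℤ) := by
      have : ∑ a, cc N (Y a) = ∑ b, ((cl N (Y b)).card : ℤ) - ∑ b, ((Y b).card : ℤ) := by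
        unfold cc
        rw [Finset.sum_sub_distrib]
      rw [this, i3]
      rw [Finset.sum_sub_distrib] at i4
      rw [Finset.sum_sub_distrib]
      linarith
    have j3 : ∑ a, (cc N (U a) - cc N (P a)) =
        ∑ a, ((cl N (U a)).card : ℤ) - ∑ a, ((U a).card : ℤ) - ∑ a, cc N (P a) := by
      rw [Finset.sum_sub_distrib]
      unfold cc
      rw [Finset.sum_sub_distrib]
    have j4 : ∑ a, (cc N (Ub a) - cc N (X a)) =
        ∑ a, ((cl N (Ub a)).card : ℤ) - ∑ a, ((Ub a).card : ℤ) - ∑ a, cc N (X a) := by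
      rw [Finset.sum_sub_distrib]
      unfold cc
      rw [Finset.sum_sub_distrib]
    rw [j3, j4] at hkey
    linarith
  -- feasibility of the closed families
  have hfe : ∀ a b, a ≠ b → b ∈ cl N (X a) → a ∉ cl N (Y b) := by
    intro a b hab hb ha
    obtain ⟨x, hx, hbx⟩ := mem_cl.1 hb
    obtain ⟨y, hy, hay⟩ := mem_cl.1 ha
    have h1 : x ∈ P y := mX.1 hx y (mI.2 hay)
    have h2 : y ∈ Q x := mY.1 hy x (mI.2 hbx)
    have hxy : x = y := by
      by_contra h
      exact hPQ y x (Ne.symm h) h1 h2
    subst hxy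
    have hxa : x = a := by
      by_contra h
      exact hPQ a x (Ne.symm h) (mX.1 hx a (hI a)) (hQ x hay)
    have hxb : x = b := by
      by_contra h
      exact hPQ x b h (hP x hbx) (mY.1 hy b (hI b))
    exact hab (hxa.symm.trans hxb)
  have hcost2 : cost N P Q ≤ cost N (fun a => cl N (X a)) (fun a => cl N (Y a)) := by
    apply hmin'
    refine ⟨?_, ?_, hfe⟩
    · intro a x hx
      exact mem_cl.2 ⟨a, hXa a, hx⟩
    · intro a x hx
      exact mem_cl.2 ⟨a, hYa a, hx⟩
  have hG' : ∀ S, cc N (cl N S) ≤ cc N S := by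
    intro S
    by_cases h : cl N S = S
    · rw [h]
    · exact (hG S h).le
  have hXc : ∀ a, cl N (X a) = X a := by
    intro a
    by_contra h
    have h1 : ∑ x, cc N (cl N (X x)) < ∑ x, cc N (X x) :=
      Finset.sum_lt_sum (fun x _ => hG' (X x)) ⟨a, mem_univ a, hG (X a) h⟩
    have h2 : ∑ x, cc N (cl N (Y x)) ≤ ∑ x, cc N (Y x) :=
      Finset.sum_le_sum (fun x _ => hG' (Y x))
    have h3 := hcost.trans hcost2 |> fun _ => hcost2
    unfold cost at h3 hcost
    linarith
  have hYc : ∀ a, cl N (Y a) = Y a := by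
    intro a
    by_contra h
    have h1 : ∑ x, cc N (cl N (Y x)) < ∑ x, cc N (Y x) :=
      Finset.sum_lt_sum (fun x _ => hG' (Y x)) ⟨a, mem_univ a, hG (Y a) h⟩
    have h2 : ∑ x, cc N (cl N (X x)) ≤ ∑ x, cc N (X x) :=
      Finset.sum_le_sum (fun x _ => hG' (X x))
    have h3 := hcost2
    unfold cost at h3 hcost
    linarith
  -- a minimal closed set
  obtain ⟨M, ⟨hMne, hMc⟩, hMmin⟩ := Set.exists_min_image
    {M : Finset V | M.Nonempty ∧ cl N M = M} Finset.card (Set.toFinite _)
    ⟨univ, univ_nonempty, Subset.antisymm (subset_univ _) (hsub _)⟩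
  obtain ⟨a, ha⟩ := hMne
  obtain ⟨b, hb, hba⟩ := hsink a
  have hbM : b ∈ M := by
    rw [← hMc]
    exact mem_cl.2 ⟨a, ha, hb⟩
  have hbX : b ∈ cl N (X a) := mem_cl.2 ⟨a, hXa a, hb⟩
  have hcap : cl N (Y b ∩ M) = Y b ∩ M := by
    apply Subset.antisymm _ (hsub _)
    intro x hx
    obtain ⟨y, hy, hxy⟩ := mem_cl.1 hx
    obtain ⟨hy1, hy2⟩ := mem_inter.1 hy
    refine mem_inter.2 ⟨?_, ?_⟩
    · rw [← hYc b]
      exact mem_cl.2 ⟨y, hy1, hxy⟩
    · rw [← hMc]
      exact mem_cl.2 ⟨y, hy2, hxy⟩
  have h1 := hMmin (Y b ∩ M) ⟨⟨b, mem_inter.2 ⟨hYa b, hbM⟩⟩, hcap⟩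
  have h2 : Y b ∩ M = M := Finset.eq_of_subset_of_card_le inter_subset_right h1
  have haY : a ∈ Y b := by
    have : a ∈ Y b ∩ M := by rw [h2]; exact ha
    exact (mem_inter.1 this).1
  exact hfe a b (Ne.symm hba) hbX (hsub _ haY)

end Vale.Agent.P038.H85
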