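import Vale.Agent.P038.Defs
import Vale.Agent.P038.H85.Cut

/-!
# Seymour's second neighbourhood conjecture
-/

namespace Vale.Agent.P038.H85

open Finset

variable {V : Type*} [Fintype V] [DecidableEq V]

/-- Closed out-neighbourhoods. -/
noncomputable def nb (D : OGraph V) (a : V) : Finset V := insert a (N1 D a)

theorem mem_nb {D : OGraph V} {a x : V} : x ∈ nb D a ↔ x = a ∨ D.arc a x := by
  simp [nb, mem_N1]

/-- A counterexample. -/
def CE (D : OGraph V) : Prop := ∀ v, (N2 D v).card < (N1 D v).card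

/-- The number of arcs. -/
noncomputable def arcs (D : OGraph V) : ℕ := ∑ v, (N1 D v).card

/-- Delete all arcs from `S` to vertices outside `S ∪ T`. -/
def del (D : OGraph V) (S T : Finset V) : OGraph V where
  arc y z := D.arc y z ∧ ¬ (y ∈ S ∧ z ∉ S ∧ z ∉ T)
  loopless v h := D.loopless v h.1
  asymm u v h h' := D.asymm u v h.1 h'.1

/-- In an arc-minimal counterexample every set `S` with `N[S] ≠ S` has
`|N[N[S]]| - |N[S]| < |N[S]| - |S|`. -/
theorem G_lemma (D : OGraph V) (hCE : CE D) (hmin : ∀ D' : OGraph V, arcs D' < arcs D → ¬ CE D')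
    (S : Finset V) (hS : cl (nb D) S ≠ S) : cc (nb D) (cl (nb D) S) < cc (nb D) S := by
  classical
  by_contra hcon
  rw [not_lt] at hcon
  have hN : ∀ a, a ∈ nb D a := fun a => mem_nb.2 (Or.inl rfl)
  have hsub : ∀ S : Finset V, S ⊆ cl (nb D) S := fun S x hx => mem_cl.2 ⟨x, hx, hN x⟩
  set L : Finset V := cl (nb D) S \ S with hL
  have hLne : L.Nonempty := by
    rw [hL, sdiff_nonempty]
    intro h
    exact hS (Subset.antisymm h (hsub S))
  let d : Finset V → ℤ := fun T => ((cl (nb D) T \ S).card : ℤ) - 2 * T.card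
  obtain ⟨T, hTL, hTmin⟩ := Set.exists_min_image {T : Finset V | T ⊂ L} d (Set.toFinite _)
    ⟨∅, by simpa [Finset.empty_ssubset] using hLne⟩
  have hTL' : T ⊂ L := hTL
  have hd0 : d ∅ = 0 := by simp [d, cl]
  have hdT : d T ≤ 0 := by
    rw [← hd0]
    exact hTmin ∅ (by simpa [Finset.empty_ssubset] using hLne)
  have hdL : 0 ≤ d L := by
    have e : cl (nb D) (cl (nb D) S) \ S = cl (nb D) L \ S := by
      ext x
      simp only [mem_sdiff]
      constructor
      · rintro ⟨h1, h2⟩
        refine ⟨?_, h2⟩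
        obtain ⟨y, hy, hxy⟩ := mem_cl.1 h1
        by_cases hyS : y ∈ S
        · exact hsub L (mem_sdiff.2 ⟨mem_cl.2 ⟨y, hyS, hxy⟩, h2⟩)
        · exact mem_cl.2 ⟨y, mem_sdiff.2 ⟨hy, hyS⟩, hxy⟩
      · rintro ⟨h1, h2⟩
        refine ⟨?_, h2⟩
        obtain ⟨y, hy, hxy⟩ := mem_cl.1 h1
        exact mem_cl.2 ⟨y, (mem_sdiff.1 hy).1, hxy⟩
    have h1 : (cl (nb D) (cl (nb D) S) \ S).card + S.card = (cl (nb D) (cl (nb D) S)).card :=
      card_sdiff_add_card_eq_card ((hsub S).trans (hsub _))
    have h2 : L.card + S.card = (cl (nb D) S).card := card_sdiff_add_card_eq_card (hsub S)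
    rw [e] at h1
    simp only [d]
    unfold cc at hcon
    omega
  have hdall : ∀ T', T' ⊆ L → d T ≤ d T' := by
    intro T' h
    by_cases h2 : T' = L
    · rw [h2]; linarith
    · exact hTmin T' (Finset.ssubset_iff_subset_ne.2 ⟨h, h2⟩)
  have hexp : ∀ E : Finset V, E ⊆ L → Disjoint T E →
      2 * E.card ≤ (cl (nb D) E \ (cl (nb D) T ∪ S)).card := by
    intro E hE hd
    have h1 := hdall (T ∪ E) (union_subset hTL'.1 hE)
    have h2 : (T ∪ E).card = T.card + E.card := card_union_of_disjoint hd
    have h3 : cl (nb D) (T ∪ E) \ S ⊆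
        (cl (nb D) T \ S) ∪ (cl (nb D) E \ (cl (nb D) T ∪ S)) := by
      intro x hx
      obtain ⟨h4, h5⟩ := mem_sdiff.1 hx
      obtain ⟨y, hy, hxy⟩ := mem_cl.1 h4
      by_cases h6 : x ∈ cl (nb D) T
      · exact mem_union_left _ (mem_sdiff.2 ⟨h6, h5⟩)
      · refine mem_union_right _ (mem_sdiff.2 ⟨?_, ?_⟩)
        · rcases mem_union.1 hy with h7 | h7
          · exact absurd (mem_cl.2 ⟨y, h7, hxy⟩) h6
          · exact mem_cl.2 ⟨y, h7, hxy⟩
        · rw [mem_union]
          tauto
    have h4 := (card_le_card h3).trans (card_union_le _ _)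
    simp only [d] at h1
    omega
  -- the deleted graph is a counterexample
  have hCE' : CE (del D S T) := by
    intro v
    by_cases hv : v ∈ S
    · set Dv : Finset V := (N1 D v).filter (fun z => z ∉ S ∧ z ∉ T) with hDv
      set Ev : Finset V := cl (nb D) Dv \ (cl (nb D) T ∪ S) with hEv
      have mD : ∀ z, z ∈ Dv ↔ D.arc v z ∧ z ∉ S ∧ z ∉ T := by
        intro z
        rw [hDv, mem_filter, mem_N1]
      have h1 : 2 * Dv.card ≤ Ev.card := by
        apply hexp
        · intro z hz
          obtain ⟨h2, h3, h4⟩ := (mD z).1 hz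
          exact mem_sdiff.2 ⟨mem_cl.2 ⟨v, hv, mem_nb.2 (Or.inr h2)⟩, h3⟩
        · rw [Finset.disjoint_left]
          intro z hz hz'
          exact ((mD z).1 hz').2.2 hz
      have h2 : N1 (del D S T) v = N1 D v \ Dv := by
        ext z
        rw [mem_N1, mem_sdiff, mem_N1, mD]
        simp only [del]
        tauto
      have h3 : (N1 (del D S T) v).card + Dv.card = (N1 D v).card := by
        rw [h2]
        exact card_sdiff_add_card_eq_card (filter_subset _ _)
      have h4 : N2 (del D S T) v ∪ Ev ⊆ N2 D v ∪ Dv := by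
        intro x hx
        rw [mem_union]
        rcases mem_union.1 hx with hx | hx
        · obtain ⟨g1, g2, u, g3, g4⟩ := mem_N2.1 hx
          by_cases g5 : D.arc v x
          · right
            rw [mD]
            refine ⟨g5, ?_⟩
            by_contra g6
            apply g2
            refine ⟨g5, ?_⟩
            tauto
          · left
            exact mem_N2.2 ⟨g1, g5, u, g3.1, g4.1⟩
        · obtain ⟨g1, g2⟩ := mem_sdiff.1 hx
          rw [mem_union] at g2
          obtain ⟨z, hz, hxz⟩ := mem_cl.1 g1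
          rcases mem_nb.1 hxz with g3 | g3
          · right
            rw [g3]
            exact hz
          · by_cases g5 : D.arc v x
            · right
              rw [mD]
              exact ⟨g5, fun h => g2 (Or.inr h), fun h => g2 (Or.inl (hsub T h))⟩
            · left
              refine mem_N2.2 ⟨?_, g5, z, ((mD z).1 hz).1, g3⟩
              rintro rfl
              exact g2 (Or.inr hv)
      have h5 : Disjoint (N2 (del D S T) v) Ev := by
        rw [Finset.disjoint_left]
        intro x hx hx'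
        obtain ⟨g1, g2, u, g3, g4⟩ := mem_N2.1 hx
        have g5 := (mem_sdiff.1 hx').2
        rw [mem_union] at g5
        by_cases hu : u ∈ S
        · apply g4.2
          exact ⟨hu, fun h => g5 (Or.inr h), fun h => g5 (Or.inl (hsub T h))⟩
        · have huT : u ∈ T := by
            by_contra h
            exact g3.2 ⟨hv, hu, h⟩
          exact g5 (Or.inl (mem_cl.2 ⟨u, huT, mem_nb.2 (Or.inr g4.1)⟩))
      have h6 := (card_le_card h4).trans (card_union_le _ _)
      rw [card_union_of_disjoint h5] at h6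
      have h7 := hCE v
      omega
    · have h2 : N1 (del D S T) v = N1 D v := by
        ext z
        rw [mem_N1, mem_N1]
        simp only [del]
        tauto
      have h3 : N2 (del D S T) v ⊆ N2 D v := by
        intro x hx
        obtain ⟨g1, g2, u, g3, g4⟩ := mem_N2.1 hx
        refine mem_N2.2 ⟨g1, ?_, u, g3.1, g4.1⟩
        intro h
        exact g2 ⟨h, fun h' => hv h'.1⟩
      rw [h2]
      exact (card_le_card h3).trans_lt (hCE v)
  -- and it has fewer arcs
  apply hmin (del D S T) _ hCE'
  obtain ⟨z, hzL, hzT⟩ := Finset.exists_of_ssubset hTL'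
  obtain ⟨hz1, hz2⟩ := mem_sdiff.1 hzL
  obtain ⟨y, hy, hzy⟩ := mem_cl.1 hz1
  have harc : D.arc y z := by
    rcases mem_nb.1 hzy with h | h
    · exact absurd (h ▸ hy) hz2
    · exact h
  have hss : ∀ v, N1 (del D S T) v ⊆ N1 D v := by
    intro v x hx
    exact mem_N1.2 (mem_N1.1 hx).1
  unfold arcs
  apply Finset.sum_lt_sum (fun v _ => card_le_card (hss v))
  refine ⟨y, mem_univ y, card_lt_card (Finset.ssubset_iff_subset_ne.2 ⟨hss y, ?_⟩)⟩
  intro h
  have h1 : z ∈ N1 (del D S T) y := by
    rw [h]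
    exact mem_N1.2 harc
  exact (mem_N1.1 h1).2 ⟨hy, hz2, hzT⟩

/-- There is no counterexample. -/
theorem no_CE [Nonempty V] : ∀ (k : ℕ) (D : OGraph V), arcs D = k → ¬ CE D := by
  intro k
  induction k using Nat.strong_induction_on with
  | _ k ih =>
    intro D hk hCE
    apply noG (nb D) (fun a => mem_nb.2 (Or.inl rfl))
    · intro a b h1 h2
      rcases mem_nb.1 h1 with h3 | h3
      · exact h3.symm
      · rcases mem_nb.1 h2 with h4 | h4
        · exact h4
        · exact absurd h4 (D.asymm a b h3)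
    · intro a
      have h1 : 0 < (N1 D a).card := lt_of_le_of_lt (Nat.zero_le _) (hCE a)
      obtain ⟨b, hb⟩ := Finset.card_pos.1 h1
      refine ⟨b, mem_nb.2 (Or.inr (mem_N1.1 hb)), ?_⟩
      rintro rfl
      exact D.loopless b (mem_N1.1 hb)
    · intro S hS
      exact G_lemma D hCE (fun D' h' => ih (arcs D') (hk ▸ h') D' rfl) S hS

omit [DecidableEq V] in
/-- **Seymour's second neighbourhood conjecture.** Every nonempty finite oriented graph has a
vertex `v` with `|N₁⁺(v)| ≤ |N₂⁺(v)|`. -/
theorem second_neighbourhood [Nonempty V] (D : OGraph V) :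
    ∃ v, (N1 D v).card ≤ (N2 D v).card := by
  classical
  by_contra h
  push Not at h
  exact no_CE (arcs D) D rfl h

end Vale.Agent.P038.H85
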