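import Mathlib

/-!
# Greedy marginals of a submodular function
-/

namespace Vale.Agent.P038.H85

open Finset

variable {V : Type*} [Fintype V] [DecidableEq V]

/-- The minimum of `c` over all `Z` with `Y ⊆ Z ⊆ K`. -/
noncomputable def cm (c : Finset V → ℤ) (K Y : Finset V) : ℤ :=
  (univ : Finset (Finset V)).inf' ⟨∅, mem_univ _⟩ (fun Z => c ((Y ∪ Z) ∩ K))

theorem cm_le {c : Finset V → ℤ} {K Y Z : Finset V} (h1 : Y ⊆ Z) (h2 : Z ⊆ K) :
    cm c K Y ≤ c Z := by
  have h := Finset.inf'_le (s := (univ : Finset (Finset V))) (fun Z => c ((Y ∪ Z) ∩ K))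
    (mem_univ Z)
  have e : (Y ∪ Z) ∩ K = Z := by
    rw [union_eq_right.2 h1, inter_eq_left.2 h2]
  simp only [e] at h
  exact h

theorem cm_ex (c : Finset V → ℤ) {K Y : Finset V} (h : Y ⊆ K) :
    ∃ Z, Y ⊆ Z ∧ Z ⊆ K ∧ cm c K Y = c Z := by
  obtain ⟨Z, _, hZ⟩ := Finset.exists_mem_eq_inf' (s := (univ : Finset (Finset V)))
    ⟨∅, mem_univ _⟩ (fun Z => c ((Y ∪ Z) ∩ K))
  exact ⟨(Y ∪ Z) ∩ K, subset_inter subset_union_left h, inter_subset_right, hZ⟩

theorem cm_mono (c : Finset V → ℤ) {K Y Y' : Finset V} (h : Y ⊆ Y') (h' : Y' ⊆ K) :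
    cm c K Y ≤ cm c K Y' := by
  obtain ⟨Z, h1, h2, h3⟩ := cm_ex c h'
  rw [h3]
  exact cm_le (h.trans h1) h2

theorem cm_self (c : Finset V → ℤ) (K : Finset V) : cm c K K = c K := by
  obtain ⟨Z, h1, h2, h3⟩ := cm_ex c (Subset.refl K)
  rw [h3, Subset.antisymm h2 h1]

theorem cm_sub {c : Finset V → ℤ} (hc : ∀ S T, c (S ∪ T) + c (S ∩ T) ≤ c S + c T)
    {K K' X Y : Finset V} {b : V} (hK : K' ⊆ K) (hX : X ⊆ K') (hXY : X ⊆ Y) (hY : Y ⊆ K)
    (hb : b ∈ K') : cm c K (insert b Y) + cm c K' X ≤ cm c K' (insert b X) + cm c K Y := by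
  obtain ⟨Z', h1, h2, h3⟩ := cm_ex c (K := K') (Y := insert b X)
    (insert_subset hb hX)
  obtain ⟨Z, g1, g2, g3⟩ := cm_ex c (K := K) (Y := Y) hY
  have a1 : cm c K' X ≤ c (Z' ∩ Z) :=
    cm_le (subset_inter ((subset_insert b X).trans h1) (hXY.trans g1))
      (inter_subset_left.trans h2)
  have a2 : cm c K (insert b Y) ≤ c (Z' ∪ Z) :=
    cm_le (insert_subset (mem_union_left _ (h1 (mem_insert_self b X)))
      (g1.trans subset_union_right)) (union_subset (h2.trans hK) g2)
  have := hc Z' Z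
  rw [h3, g3]
  linarith

/-- **The key inequality.** -/
theorem key {c : Finset V → ℤ} (hc : ∀ S T, c (S ∪ T) + c (S ∩ T) ≤ c S + c T)
    (I : V → Finset V) (hI : ∀ a, a ∈ I a)
    (P U Pb Ub : V → Finset V) (hPU : ∀ a, P a ⊆ U a)
    (hPb : ∀ a x, x ∈ Pb a ↔ ∀ s ∈ I a, x ∈ P s)
    (hUb : ∀ a x, x ∈ Ub a ↔ ∀ s ∈ I a, x ∈ U s)
    (R : ∀ a S, P a ⊆ S → S ⊆ U a → c (P a) ≤ c S)
    (C : ∀ u (T : Finset V), (∀ z ∈ T, u ∈ U z ∧ u ∉ P z) →
      T.card ≤ (univ.filter (fun a => u ∈ Ub a ∧ ∃ z ∈ T, z ∈ I a)).card) :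
    ∑ a, (c (U a) - c (P a)) ≤ ∑ a, (c (Ub a) - c (Pb a)) := by
  classical
  have hPbP : ∀ a, ∀ s ∈ I a, Pb a ⊆ P s := fun a s hs x hx => (hPb a x).1 hx s hs
  have hUbU : ∀ a, ∀ s ∈ I a, Ub a ⊆ U s := fun a s hs x hx => (hUb a x).1 hx s hs
  have hPbUb : ∀ a, Pb a ⊆ Ub a := fun a x hx =>
    (hUb a x).2 fun s hs => hPU s (hPbP a s hs hx)
  -- (iii)
  have R' : ∀ a S, Pb a ⊆ S → S ⊆ Ub a → c (Pb a) ≤ c S := by
    intro a S h1 h2
    have step : ∀ J : Finset V, J ⊆ I a → c (S.filter (fun x => ∀ s ∈ J, x ∈ P s)) ≤ c S := by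
      intro J
      induction J using Finset.induction_on with
      | empty => intro _; simp
      | insert z J hz ih =>
        intro hJ
        have ih' := ih ((subset_insert z J).trans hJ)
        have hzI : z ∈ I a := hJ (mem_insert_self z J)
        set S1 := S.filter (fun x => ∀ s ∈ J, x ∈ P s) with hS1
        have e : S.filter (fun x => ∀ s ∈ insert z J, x ∈ P s) = S1 ∩ P z := by
          ext x
          simp only [hS1, mem_filter, mem_insert, forall_eq_or_imp, mem_inter]
          tauto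
        rw [e]
        have h3 := hc S1 (P z)
        have h4 : c (P z) ≤ c (S1 ∪ P z) := by
          apply R z
          · exact subset_union_right
          · apply union_subset _ (hPU z)
            exact (filter_subset _ _).trans (h2.trans (hUbU a z hzI))
        linarith
    have h := step (I a) (Subset.refl _)
    have e : S.filter (fun x => ∀ s ∈ I a, x ∈ P s) = Pb a := by
      ext x
      simp only [mem_filter]
      constructor
      · rintro ⟨_, h⟩
        exact (hPb a x).2 h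
      · intro h
        exact ⟨h1 h, (hPb a x).1 h⟩
    rw [e] at h
    exact h
  -- enumeration
  let n := Fintype.card V
  let e : V ≃ Fin n := Fintype.equivFin V
  let Wk : ℕ → Finset V := fun k => univ.filter (fun v => (e v).val < k)
  have hW : ∀ i : Fin n, Wk (i.val + 1) = insert (e.symm i) (Wk i.val) := by
    intro i
    ext v
    simp only [Wk, mem_filter, mem_univ, true_and, mem_insert]
    constructor
    · intro h
      rcases Nat.lt_succ_iff_lt_or_eq.1 h with h | h
      · exact Or.inr h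
      · left
        rw [Equiv.eq_symm_apply]
        exact Fin.ext h
    · rintro (h | h)
      · rw [h]; simp
      · omega
  have hW0 : Wk 0 = ∅ := by
    ext v; simp [Wk]
  have hWn : Wk n = univ := by
    ext v; simp [Wk]
  let f : V → ℕ → ℤ := fun a k => cm c (U a) (P a ∪ (U a ∩ Wk k))
  let g : V → ℕ → ℤ := fun a k => cm c (Ub a) (Pb a ∪ (Ub a ∩ Wk k))
  have hf0 : ∀ a, f a 0 = c (P a) := by
    intro a
    simp only [f, hW0, inter_empty, union_empty]
    apply le_antisymm (cm_le (Subset.refl _) (hPU a))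
    obtain ⟨Z, h1, h2, h3⟩ := cm_ex c (hPU a)
    rw [h3]
    exact R a Z h1 h2
  have hg0 : ∀ a, g a 0 = c (Pb a) := by
    intro a
    simp only [g, hW0, inter_empty, union_empty]
    apply le_antisymm (cm_le (Subset.refl _) (hPbUb a))
    obtain ⟨Z, h1, h2, h3⟩ := cm_ex c (hPbUb a)
    rw [h3]
    exact R' a Z h1 h2
  have hfn : ∀ a, f a n = c (U a) := by
    intro a
    simp only [f, hWn, inter_univ, union_eq_right.2 (hPU a)]
    exact cm_self c _
  have hgn : ∀ a, g a n = c (Ub a) := by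
    intro a
    simp only [g, hWn, inter_univ, union_eq_right.2 (hPbUb a)]
    exact cm_self c _
  have tel : ∀ h : ℕ → ℤ, ∑ i : Fin n, (h (i.val + 1) - h i.val) = h n - h 0 := by
    intro h
    rw [Fin.sum_univ_eq_sum_range (fun i => h (i + 1) - h i) n]
    exact Finset.sum_range_sub h n
  have hs1 : ∑ a, (c (U a) - c (P a)) = ∑ i : Fin n, ∑ a, (f a (i.val + 1) - f a i.val) := by
    rw [Finset.sum_comm]
    exact Finset.sum_congr rfl fun a _ => by rw [tel (f a), hf0, hfn]
  have hs2 : ∑ a, (c (Ub a) - c (Pb a)) = ∑ i : Fin n, ∑ a, (g a (i.val + 1) - g a i.val) := by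
    rw [Finset.sum_comm]
    exact Finset.sum_congr rfl fun a _ => by rw [tel (g a), hg0, hgn]
  rw [hs1, hs2]
  apply Finset.sum_le_sum
  intro i _
  set b := e.symm i with hb
  -- monotonicity of the marginals
  have hfm : ∀ a, 0 ≤ g a (i.val + 1) - g a i.val := by
    intro a
    have : g a i.val ≤ g a (i.val + 1) := by
      apply cm_mono
      · rw [hW i]
        exact union_subset_union (Subset.refl _)
          (inter_subset_inter (Subset.refl _) (subset_insert _ _))
      · exact union_subset (hPbUb a) inter_subset_left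
    linarith
  have hz : ∀ a, ¬ (b ∈ U a ∧ b ∉ P a) → f a (i.val + 1) - f a i.val = 0 := by
    intro a h
    have : P a ∪ (U a ∩ Wk (i.val + 1)) = P a ∪ (U a ∩ Wk i.val) := by
      rw [hW i]
      ext x
      simp only [mem_union, mem_inter, mem_insert]
      constructor
      · rintro (h1 | ⟨h1, h2 | h2⟩)
        · exact Or.inl h1
        · subst h2
          by_cases h3 : b ∈ P a
          · exact Or.inl h3
          · exact absurd ⟨h1, h3⟩ h
        · exact Or.inr ⟨h1, h2⟩
      · rintro (h1 | ⟨h1, h2⟩)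
        · exact Or.inl h1
        · exact Or.inr ⟨h1, Or.inr h2⟩
    simp only [f, this, sub_self]
  have hcmp : ∀ a z, z ∈ I a → b ∈ Ub a →
      f z (i.val + 1) - f z i.val ≤ g a (i.val + 1) - g a i.val := by
    intro a z hza hba
    have hbz : b ∈ U z := hUbU a z hza hba
    have e1 : Pb a ∪ (Ub a ∩ Wk (i.val + 1)) = insert b (Pb a ∪ (Ub a ∩ Wk i.val)) := by
      rw [hW i]
      ext x
      simp only [mem_union, mem_inter, mem_insert]
      constructor
      · rintro (h1 | ⟨h1, h2 | h2⟩)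
        · exact Or.inr (Or.inl h1)
        · exact Or.inl h2
        · exact Or.inr (Or.inr ⟨h1, h2⟩)
      · rintro (h1 | h1 | ⟨h1, h2⟩)
        · exact Or.inr ⟨h1 ▸ hba, Or.inl h1⟩
        · exact Or.inl h1
        · exact Or.inr ⟨h1, Or.inr h2⟩
    have e2 : P z ∪ (U z ∩ Wk (i.val + 1)) = insert b (P z ∪ (U z ∩ Wk i.val)) := by
      rw [hW i]
      ext x
      simp only [mem_union, mem_inter, mem_insert]
      constructor
      · rintro (h1 | ⟨h1, h2 | h2⟩)
        · exact Or.inr (Or.inl h1)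
        · exact Or.inl h2
        · exact Or.inr (Or.inr ⟨h1, h2⟩)
      · rintro (h1 | h1 | ⟨h1, h2⟩)
        · exact Or.inr ⟨h1 ▸ hbz, Or.inl h1⟩
        · exact Or.inl h1
        · exact Or.inr ⟨h1, Or.inr h2⟩
    have h := cm_sub hc (K := U z) (K' := Ub a) (X := Pb a ∪ (Ub a ∩ Wk i.val))
      (Y := P z ∪ (U z ∩ Wk i.val)) (b := b) (hUbU a z hza)
      (union_subset (hPbUb a) inter_subset_left)
      (union_subset_union (hPbP a z hza) (inter_subset_inter (hUbU a z hza) (Subset.refl _)))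
      (union_subset (hPU z) inter_subset_left) hba
    simp only [f, g, e1, e2]
    linarith
  -- Hall's theorem for the column of `b`
  let G : Finset V := univ.filter (fun z => b ∈ U z ∧ b ∉ P z)
  let t : G → Finset V := fun z => univ.filter (fun a => b ∈ Ub a ∧ z.1 ∈ I a)
  have hall : ∃ ι : G → V, Function.Injective ι ∧ ∀ x, ι x ∈ t x := by
    rw [← Finset.all_card_le_biUnion_card_iff_exists_injective]
    intro s
    have h := C b (s.image Subtype.val) (by
      intro z hz
      obtain ⟨x, _, rfl⟩ := mem_image.1 hz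
      exact (mem_filter.1 x.2).2)
    rw [Finset.card_image_of_injective _ Subtype.val_injective] at h
    refine h.trans (Finset.card_le_card ?_)
    intro a ha
    obtain ⟨h1, z, h2, h3⟩ := (mem_filter.1 ha).2
    obtain ⟨x, hx, rfl⟩ := mem_image.1 h2
    exact mem_biUnion.2 ⟨x, hx, mem_filter.2 ⟨mem_univ _, h1, h3⟩⟩
  obtain ⟨ι, hι, hιt⟩ := hall
  calc ∑ a, (f a (i.val + 1) - f a i.val)
      = ∑ a ∈ G, (f a (i.val + 1) - f a i.val) := by
        symm
        apply Finset.sum_subset (subset_univ _)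
        intro a _ ha
        apply hz
        intro h
        exact ha (mem_filter.2 ⟨mem_univ _, h⟩)
    _ = ∑ z : G, (f z.1 (i.val + 1) - f z.1 i.val) := by
        rw [Finset.sum_coe_sort G (fun z => f z (i.val + 1) - f z i.val)]
    _ ≤ ∑ z : G, (g (ι z) (i.val + 1) - g (ι z) i.val) := by
        apply Finset.sum_le_sum
        intro z _
        obtain ⟨h1, h2⟩ := (mem_filter.1 (hιt z)).2
        exact hcmp (ι z) z.1 h2 h1
    _ = ∑ a ∈ (univ : Finset G).image ι, (g a (i.val + 1) - g a i.val) := by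
        rw [Finset.sum_image (fun x _ y _ h => hι h)]
    _ ≤ ∑ a, (g a (i.val + 1) - g a i.val) := by
        apply Finset.sum_le_sum_of_subset_of_nonneg (subset_univ _)
        intro a _ _
        exact hfm a

end Vale.Agent.P038.H85
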